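import Crest.Agent.X212.Ulc97.Geo
import Crest.Agent.X212.Lw78.Hb

-- ▼ part X212/Ulc97/Int
section

/-!
# Row 212, RAD-UL (helper97): local norms, weighted norms
-/

set_option autoImplicit false
set_option linter.unusedSectionVars false
noncomputable section
open scoped Manifold ContDiff Topology InnerProductSpace NNReal
open MeasureTheory Set Function Filter Real

namespace Crest.Agent.X212.Ulc97
open An Cyf70 Ell97 Sob92 Rad94
open Nd18 (YD BD)
open M (Mf pm)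

section gen
variable {E : Type} [NormedAddCommGroup E] [NormedSpace ℝ E] [FiniteDimensional ℝ E]
  [MeasurableSpace E] [BorelSpace E]
  {HM : Type} [TopologicalSpace HM] {I : ModelWithCorners ℝ E HM}
  {M : Type} [TopologicalSpace M] [ChartedSpace HM M] [IsManifold I ∞ M]
  [MeasurableSpace M] {ι : Type} [Fintype ι] [T2Space M] [BorelSpace M] [SecondCountableTopology M]
  {N : Type} [NormedAddCommGroup N] [NormedSpace ℝ N] {F : Pre I M ι} {S T : Set M} {k : ℕ}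
  {u v : M → N} {r : ℝ}

theorem nS_le : nS F S k u ≤ r ↔ 0 ≤ r ∧ NS F S k u ≤ r ^ 2 := Real.sqrt_le_iff

theorem nS_sq : nS F S k u ^ 2 = NS F S k u := Real.sq_sqrt (n2_nonneg k u)

theorem FS0 (hS : IsCompact S) (hu : Continuous u) : FS F S 0 u :=
  (memLp_two_iff_integrable_sq_norm hu.aestronglyMeasurable).2
    ((hu.norm.pow 2).continuousOn.integrableOn_compact hS)

theorem NS_zero (k : ℕ) : NS F S k (0 : M → N) = 0 := by
  induction k with
  | zero => simp [n2]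
  | succ k ih => simp [n2, dv_zero, ih]

theorem NS_one (k : ℕ) : NS F S k (fun _ => (1 : ℝ)) = F.μ.real S := by
  cases k <;> simp [n2, dv_const, NS_zero]

theorem NS_cover {α : Type} [Fintype α] {R : α → Set M} (hT : FS F T k u) (hR : ∀ a, FS F (R a) k u)
    (h : S ⊆ T ∪ ⋃ a, R a) : NS F S k u ≤ NS F T k u + ∑ a, NS F (R a) k u := by
  classical
  have : ∀ t : Finset α, FS F (T ∪ ⋃ a ∈ t, R a) k u ∧
      NS F (T ∪ ⋃ a ∈ t, R a) k u ≤ NS F T k u + ∑ a ∈ t, NS F (R a) k u := by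
    refine Finset.induction (by simpa using hT) fun a t ha ih => ?_
    rw [Finset.set_biUnion_insert, union_left_comm, Finset.sum_insert ha]
    exact ⟨(NS_union_le (hR a) ih.1).1, (NS_union_le (hR a) ih.1).2.trans (by linarith [ih.2])⟩
  exact (NS_mono (this Finset.univ).1 (by simpa using h)).trans (this _).2

theorem NS_le_of_zero (hS : IsCompact S) (hT : IsCompact T) (hu : Sm I u)
    (h : ∀ x ∈ S, x ∉ T → u =ᶠ[𝓝 x] 0) : NS F S k u ≤ NS F T k u := by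
  have h1 := NS_union_le (FS_of_compact (F := F) hT k hu) (ML_mono_measure
    (Measure.restrict_mono (sdiff_subset (t := T)) le_rfl) k (FS_of_compact (F := F) hS k hu))
  rw [NS_congr (hS.measurableSet.diff hT.measurableSet) k fun x hx => h x hx.1 hx.2, NS_zero,
    add_zero] at h1
  exact (NS_mono h1.1 fun x hx => or_iff_not_imp_left.2 fun e => ⟨hx, e⟩).trans h1.2

theorem NS_add_le {t : ℝ} (ht : 0 < t) (hS : IsCompact S) (k : ℕ) : ∀ {u v : M → N}, Sm I u →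
    Sm I v → NS F S k (u + v) ≤ (1 + t) * NS F S k u + (1 + t⁻¹) * NS F S k v := by
  have h0 : ∀ {u v : M → N}, Sm I u → Sm I v →
      NS F S 0 (u + v) ≤ (1 + t) * NS F S 0 u + (1 + t⁻¹) * NS F S 0 v := fun {u v} hu hv => by
    have i1 := (int_sq (FS0 (F := F) hS hu.continuous)).const_mul (1 + t)
    have i2 := (int_sq (FS0 (F := F) hS hv.continuous)).const_mul (1 + t⁻¹)
    simp only [n2]
    rw [← integral_const_mul, ← integral_const_mul, ← integral_add i1 i2]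
    refine integral_mono (int_sq (FS0 hS (hu.add hv).continuous)) (i1.add i2) fun x =>
      (pow_le_pow_left₀ (norm_nonneg _) (norm_add_le (u x) (v x)) 2).trans ?_
    have : 0 ≤ (t * ‖u x‖ - ‖v x‖) ^ 2 / t := by positivity
    rw [show (t * ‖u x‖ - ‖v x‖) ^ 2 / t = (1 + t) * ‖u x‖ ^ 2 + (1 + t⁻¹) * ‖v x‖ ^ 2 -
      (‖u x‖ + ‖v x‖) ^ 2 by field_simp; ring] at this
    exact sub_nonneg.1 this
  induction k with
  | zero => exact h0
  | succ k ih =>
    intro u v hu hv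
    have h1 := Finset.sum_le_sum fun a (_ : a ∈ Finset.univ) => ih (F.sm_D hu a) (F.sm_D hv a)
    simp only [← F.D_add hu hv, Finset.sum_add_distrib, ← Finset.mul_sum] at h1
    have h2 := h0 hu hv
    simp only [NS, n2_succ, ← Pre.D_def] at h1 h2 ⊢
    linarith

/-- Minkowski -/
theorem nS_add_le (hS : IsCompact S) (hu : Sm I u) (hv : Sm I v) :
    nS F S k (u + v) ≤ nS F S k u + nS F S k v := by
  refine le_of_forall_pos_le_add fun ε hε => ?_
  have a := nS_nonneg (F := F) (S := S) (k := k) u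
  have b := nS_nonneg (F := F) (S := S) (k := k) v
  have h := NS_add_le (F := F) (t := (nS F S k v + ε / 2) / (nS F S k u + ε / 2)) (by positivity)
    hS k hu hv
  refine nS_le.2 ⟨by positivity, h.trans ?_⟩
  rw [← nS_sq, ← nS_sq]
  generalize nS F S k u = x, nS F S k v = y at *
  calc _ ≤ (1 + (y + ε / 2) / (x + ε / 2)) * (x + ε / 2) ^ 2 +
        (1 + ((y + ε / 2) / (x + ε / 2))⁻¹) * (y + ε / 2) ^ 2 := by gcongr <;> linarith
    _ = _ := by field_simp; ring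

theorem nS_smul_le (hS : IsCompact S) (hu : Sm I u) (c : ℝ) :
    nS F S k (c • u) ≤ |c| * nS F S k u := by
  refine nS_le.2 ⟨mul_nonneg (abs_nonneg c) (nS_nonneg u), (n2_clm_le F.sm
    (c • ContinuousLinearMap.id ℝ N) k hu (FS_of_compact hS k hu)).trans ?_⟩
  rw [mul_pow, nS_sq]
  refine mul_le_mul_of_nonneg_right (pow_le_pow_left₀ (norm_nonneg _) ?_ 2) (n2_nonneg k u)
  exact ContinuousLinearMap.opNorm_le_bound _ (abs_nonneg c) fun x => by simp [norm_smul]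

theorem Dw_congr (w : List ι) : ∀ {u v : M → N} {x : M}, u =ᶠ[𝓝 x] v → F.Dw w u x = F.Dw w v x := by
  induction w with
  | nil => exact fun h => h.self_of_nhds
  | cons a w ih => exact fun h => ih (h.eventuallyEq_nhds.mono fun _ => dv_congr)

theorem Dw_concat (w : List ι) (a : ι) : ∀ u : M → N, F.Dw (w ++ [a]) u = F.D a (F.Dw w u) := by
  induction w with
  | nil => exact fun _ => rfl
  | cons b w ih => exact fun u => ih _

end gen

theorem geo_int {φ : ℝ → ℝ} {R a : ℝ} (ha : 0 < a) (hc : ContinuousOn φ (Ici 0))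
    (h0 : ∀ t, 0 ≤ φ t) (h : ∀ τ, 0 ≤ τ → ∫ t in Icc τ (τ + 1), φ t ≤ R) :
    IntegrableOn (fun t => φ t * exp (-a * t)) (Ioi 0) ∧
      ∫ t in Ioi 0, φ t * exp (-a * t) ≤ R * (1 - exp (-a))⁻¹ := by
  have hR : 0 ≤ R := (integral_nonneg h0).trans (h 0 le_rfl)
  have c1 : ContinuousOn (fun t => φ t * exp (-a * t)) (Ici 0) := hc.mul (by fun_prop)
  have i1 : ∀ {ψ : ℝ → ℝ} {p q : ℝ}, ContinuousOn ψ (Ici 0) → 0 ≤ p → IntegrableOn ψ (Icc p q) :=
    fun h hp => (h.mono fun _ e => hp.trans e.1).integrableOn_compact isCompact_Icc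
  have key : ∀ n : ℕ, ∫ t in (0 : ℝ)..n, φ t * exp (-a * t) ≤ R * (1 - exp (-a))⁻¹ := fun n => by
    have h1 := intervalIntegral.sum_integral_adjacent_intervals (μ := volume) (n := n)
      (f := fun t => φ t * exp (-a * t)) (a := fun k => (k : ℝ)) fun k _ =>
      (intervalIntegrable_iff_integrableOn_Icc_of_le (by simp)).2 (i1 c1 k.cast_nonneg)
    have e1 : exp (-a) < 1 := exp_lt_one_iff.2 (by linarith)
    rw [← Nat.cast_zero, ← h1, ← tsum_geometric_of_lt_one (exp_pos _).le e1]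
    refine le_trans ?_ (mul_le_mul_of_nonneg_left ((summable_geometric_of_lt_one (exp_pos _).le
      e1).sum_le_tsum (Finset.range n) fun _ _ => by positivity) hR)
    rw [Finset.mul_sum]
    refine Finset.sum_le_sum fun k _ => ?_
    rw [intervalIntegral.integral_of_le (by simp), ← integral_Icc_eq_integral_Ioc, Nat.cast_succ]
    refine le_trans ?_ (mul_le_mul_of_nonneg_right (h k k.cast_nonneg) (by positivity))
    rw [← integral_mul_const]
    refine setIntegral_mono_on (i1 c1 k.cast_nonneg) ((i1 hc k.cast_nonneg).mul_const _)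
      measurableSet_Icc fun t ht => mul_le_mul_of_nonneg_left ?_ (h0 t)
    rw [← exp_nat_mul]
    exact exp_le_exp.2 (by nlinarith [ht.1])
  have hi := integrableOn_Ioi_of_intervalIntegral_norm_bounded (l := atTop) (μ := volume) _ 0
    (fun n : ℕ => (i1 c1 le_rfl).mono_set Ioc_subset_Icc_self) tendsto_natCast_atTop_atTop
    (.of_forall fun n => by
      simp only [Real.norm_of_nonneg (mul_nonneg (h0 _) (exp_pos _).le)]; exact key n)
  exact ⟨hi, le_of_tendsto' (intervalIntegral_tendsto_integral_Ioi 0 hi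
    tendsto_natCast_atTop_atTop) key⟩

variable {κ lam A : Type} [Fintype κ] [Fintype lam] [Fintype A] {X : Mf 4}
  {N N' : Type} [NormedAddCommGroup N] [NormedSpace ℝ N] [NormedAddCommGroup N'] [NormedSpace ℝ N']
  {g : Gm X κ lam A} {s s' : A} {τ r : ℝ} {x : X.M} {u u' : X.M → N} {k : ℕ} {ϖ : A → ℝ}

theorem contOn_n2 (hu : Continuous u) : ContinuousOn (g.n2 s u) (Ioi (-1)) :=
  contOn_sl (hu.norm.pow 2)

theorem NS0_Icc (h : -1 < τ) (hu : Continuous u) (b : ℝ) :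
    NS g.F.toPre (g.ht s ⁻¹' Icc τ b) 0 u = ∫ t in Icc τ b, g.n2 s u t := int_Icc h (hu.norm.pow 2) b

variable (g) in
/-- the pieces -/
def S0 : Option (A × ℝ≥0) → Set X.M
  | none => g.cor 1
  | some p => g.slab p.1 p.2

theorem ul_iff : g.Ul k u r ↔ ∀ j, nS g.F.toPre (S0 g j) k u ≤ r := by
  refine ⟨fun h j => ?_, fun h => ⟨h none, fun s τ hτ => h (some (s, ⟨τ, hτ⟩))⟩⟩
  cases j with
  | none => exact h.1
  | some p => exact h.2 _ _ p.2.2

theorem nn_lt (t : ℝ≥0) : (-1 : ℝ) < t := neg_one_lt_zero.trans_le t.2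

theorem cpt_S0 (hg : g.OK) : ∀ j, IsCompact (S0 g j)
  | none => hg.cpt 1
  | some p => isCompact_slab (nn_lt p.2)

theorem exists_S0 (x : X.M) : ∃ j, x ∈ S0 g j := by
  by_cases h : x ∈ g.cor 1
  · exact ⟨none, h⟩
  · obtain ⟨s, hs⟩ := not_forall.1 h
    exact ⟨some (s, ⟨g.ht s x, by linarith [not_le.1 hs]⟩), le_rfl, le_add_of_nonneg_right zero_le_one⟩

theorem ul_nn (h : g.Ul k u r) : 0 ≤ r := (nS_nonneg u).trans h.1

theorem ul_NS (h : g.Ul k u r) (j : Option (A × ℝ≥0)) : NS g.F.toPre (S0 g j) k u ≤ r ^ 2 :=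
  (nS_le.1 (ul_iff.1 h j)).2

theorem ul_of (h0 : 0 ≤ r) (h : ∀ j, NS g.F.toPre (S0 g j) k u ≤ r ^ 2) : g.Ul k u r :=
  ul_iff.2 fun j => nS_le.2 ⟨h0, h j⟩

theorem ul_mono {j : ℕ} {r' : ℝ} (h : g.Ul k u r) (hj : j ≤ k) (hr : r ≤ r') : g.Ul j u r' :=
  ul_iff.2 fun i => (nS_mono hj u).trans ((ul_iff.1 h i).trans hr)

theorem ul_add (hg : g.OK) {r' : ℝ} (hu : Sm X.I u) (hu' : Sm X.I u') (h : g.Ul k u r)
    (h' : g.Ul k u' r') : g.Ul k (u + u') (r + r') := ul_iff.2 fun j =>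
  (nS_add_le (cpt_S0 hg j) hu hu').trans (add_le_add (ul_iff.1 h j) (ul_iff.1 h' j))

theorem ul_smul (hg : g.OK) (hu : Sm X.I u) (h : g.Ul k u r) (c : ℝ) :
    g.Ul k (c • u) (|c| * r) := ul_iff.2 fun j => (nS_smul_le (cpt_S0 hg j) hu c).trans
  (mul_le_mul_of_nonneg_left (ul_iff.1 h j) (abs_nonneg c))

theorem ul_sum (hg : g.OK) {α : Type} (t : Finset α) {f : α → X.M → N} {r : α → ℝ}
    (hf : ∀ a, Sm X.I (f a)) (h : ∀ a, g.Ul k (f a) (r a)) :
    g.Ul k (fun x => ∑ a ∈ t, f a x) (∑ a ∈ t, r a) := by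
  classical
  induction t using Finset.induction_on with
  | empty => exact ul_of le_rfl fun j => (NS_zero k).le.trans (sq_nonneg _)
  | insert a t ha ih =>
    simp only [Finset.sum_insert ha]
    exact ul_add hg (hf a) (contMDiff_finsetSum fun i _ => hf i) (h a) ih

theorem ul_n (hg : g.OK) (hu : Continuous u) (h0 : 0 ≤ r) (hq : g.q0 u ≤ r ^ 2)
    (h : ∀ s τ, 0 ≤ τ → g.n2 s u τ ≤ r ^ 2) : g.Ul 0 u ((Fintype.card A + 1) * r) := by
  have h1 : ∀ s τ, 0 ≤ τ → NS g.F.toPre (g.slab s τ) 0 u ≤ r ^ 2 := fun s τ hτ => by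
    have e : -1 < τ := by linarith
    refine (NS0_Icc e hu _).trans_le ((setIntegral_mono_on (intOn_sl e (hu.norm.pow 2) _)
      (continuous_const.continuousOn.integrableOn_compact isCompact_Icc) measurableSet_Icc
      fun t ht => h s t (hτ.trans ht.1)).trans_eq (by simp))
  have h2 : (0 : ℝ) ≤ Fintype.card A := Nat.cast_nonneg _
  refine ul_of (by positivity) fun j => ?_
  cases j with
  | some p => exact (h1 _ _ p.2.2).trans (by rw [mul_pow]; nlinarith [sq_nonneg r, mul_nonneg h2 h2])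
  | none =>
    refine (NS_cover (R := fun s => g.slab s 0) (FS0 (hg.cpt 0) hu)
      (fun s => FS0 (isCompact_slab neg_one_lt_zero) hu) fun x hx => ?_).trans
      ((add_le_add hq (Finset.sum_le_sum fun s _ => h1 s 0 le_rfl)).trans ?_)
    · refine or_iff_not_imp_left.2 fun e => ?_
      obtain ⟨s, hs⟩ := not_forall.1 e
      exact mem_iUnion.2 ⟨s, (not_le.1 hs).le, by simpa using hx s⟩
    · rw [Finset.sum_const, Finset.card_univ, nsmul_eq_mul, mul_pow]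
      nlinarith [mul_nonneg (sq_nonneg r) h2, mul_nonneg (sq_nonneg r) (mul_nonneg h2 h2)]

/-! ### weighted norms -/

theorem Ioi_sub : Ioi (0 : ℝ) ⊆ Ioi (-1) := Ioi_subset_Ioi neg_one_lt_zero.le

theorem q0_nn (u : X.M → N) : 0 ≤ g.q0 u := integral_nonneg fun _ => by positivity

theorem end_nn (u : X.M → N) (a : ℝ) : 0 ≤ ∫ τ in Ioi 0, g.n2 s u τ * exp (a * τ) :=
  integral_nonneg fun τ => mul_nonneg (n2_nn u τ) (exp_pos _).le

theorem Q_nn (u : X.M → N) : 0 ≤ g.Q ϖ u :=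
  add_nonneg (q0_nn u) (Finset.sum_nonneg fun _ _ => end_nn u _)

theorem cont_w (hu : Continuous u) (a : ℝ) : Continuous fun x => exp (a * g.ht s x) * ‖u x‖ ^ 2 :=
  (continuous_exp.comp (continuous_const.mul (cont_ht g s))).mul (hu.norm.pow 2)

theorem sl_w (a : ℝ) : EqOn (sl g s fun x => exp (a * g.ht s x) * ‖u x‖ ^ 2)
    (fun τ => g.n2 s u τ * exp (a * τ)) (Ioi 0) := fun _ h =>
  (sl_rad (fun t => exp (a * t)) (Ioi_sub h)).trans (mul_comm _ _)

theorem fi_iff (hu : Continuous u) (a : ℝ) :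
    IntegrableOn (fun τ => g.n2 s u τ * exp (a * τ)) (Ioi 0) ↔
      IntegrableOn (fun x => exp (a * g.ht s x) * ‖u x‖ ^ 2) (g.ht s ⁻¹' Ioi 0) g.F.μ := by
  rw [intOn_iff measurableSet_Ioi Ioi_sub (cont_w hu a), funext fun x => Real.norm_of_nonneg
    (show 0 ≤ exp (a * g.ht s x) * ‖u x‖ ^ 2 by positivity),
    integrableOn_congr_fun (sl_w a) measurableSet_Ioi]

theorem end_eq (hu : Continuous u) {a : ℝ}
    (h : IntegrableOn (fun τ => g.n2 s u τ * exp (a * τ)) (Ioi 0)) :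
    ∫ τ in Ioi 0, g.n2 s u τ * exp (a * τ) =
      ∫ x in g.ht s ⁻¹' Ioi 0, exp (a * g.ht s x) * ‖u x‖ ^ 2 ∂g.F.μ := by
  rw [int_ht measurableSet_Ioi Ioi_sub (cont_w hu a) ((fi_iff hu a).1 h),
    setIntegral_congr_fun measurableSet_Ioi (sl_w a)]

theorem q_sep (hg : g.OK) (hu : Continuous u) (hF : g.Fi ϖ u) (h : g.Q ϖ u = 0) : u = 0 := by
  obtain ⟨h1, h2⟩ := (add_eq_zero_iff_of_nonneg (q0_nn u)
    (Finset.sum_nonneg fun _ _ => end_nn u _)).1 h
  rw [Finset.sum_eq_zero_iff_of_nonneg fun _ _ => end_nn u _] at h2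
  have := openPos g.F.toPre
  refine (Continuous.ae_eq_iff_eq g.F.μ hu continuous_zero).1 ?_
  rw [← Measure.restrict_univ (μ := g.F.μ), ← union_compl_self (g.cor 0), cor_compl, EventuallyEq,
    ae_restrict_union_iff, ae_restrict_iUnion_iff]
  refine ⟨((integral_eq_zero_iff_of_nonneg (fun _ => by positivity)
    (int_sq (FS0 (hg.cpt 0) hu))).1 h1).mono fun x hx => by simpa using hx, fun s => ?_⟩
  exact ((integral_eq_zero_iff_of_nonneg (fun _ => by positivity) ((fi_iff hu _).1 (hF s))).1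
    ((end_eq hu (hF s)).symm.trans (h2 s (Finset.mem_univ s)))).mono fun x hx => by simpa using hx

theorem q_le (hg : g.OK) {f : X.M → N'} {c : ℝ} (hu : Continuous u) (hu' : Continuous u')
    (hf : Continuous f) (h : ∀ x, ‖f x‖ ≤ c * (‖u x‖ + ‖u' x‖)) (hF : g.Fi ϖ u) (hF' : g.Fi ϖ u') :
    g.Fi ϖ f ∧ g.Q ϖ f ≤ 2 * c ^ 2 * (g.Q ϖ u + g.Q ϖ u') := by
  have h1 : ∀ x, ‖f x‖ ^ 2 ≤ 2 * c ^ 2 * (‖u x‖ ^ 2 + ‖u' x‖ ^ 2) := fun x =>
    (pow_le_pow_left₀ (norm_nonneg _) (h x) 2).trans (by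
      nlinarith [mul_nonneg (sq_nonneg c) (sq_nonneg (‖u x‖ - ‖u' x‖))])
  have h2 : ∀ s, ∀ τ ∈ Ioi (0 : ℝ), g.n2 s f τ * exp (-(2 * ϖ s) * τ) ≤ 2 * c ^ 2 *
      (g.n2 s u τ * exp (-(2 * ϖ s) * τ) + g.n2 s u' τ * exp (-(2 * ϖ s) * τ)) := fun s τ hτ => by
    have := sl_mono (g := g) (s := s) (hf.norm.pow 2) (continuous_const.mul
      ((hu.norm.pow 2).add (hu'.norm.pow 2))) (Ioi_sub hτ) fun y => h1 _
    rw [← add_mul, ← mul_assoc]
    exact mul_le_mul_of_nonneg_right (this.trans_eq ((sl_mul _ _).trans (congrArg _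
      (sl_add (hu.norm.pow 2) (hu'.norm.pow 2) (Ioi_sub hτ))))) (exp_pos _).le
  have h3 : g.Fi ϖ f := fun s => (((hF s).add (hF' s)).const_mul _).mono'
    ((((contOn_n2 hf).mono Ioi_sub).mul (by fun_prop)).aestronglyMeasurable measurableSet_Ioi)
    ((ae_restrict_mem measurableSet_Ioi).mono fun τ hτ =>
      (Real.norm_of_nonneg (mul_nonneg (n2_nn f τ) (exp_pos _).le)).trans_le (h2 s τ hτ))
  have i := fun {u : X.M → N} (hu : Continuous u) => int_sq (FS0 (F := g.F.toPre) (hg.cpt 0) hu)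
  have h4 := integral_mono (int_sq (FS0 (hg.cpt 0) hf)) (((i hu).add (i hu')).const_mul _) h1
  have h5 := Finset.sum_le_sum fun s (_ : s ∈ Finset.univ) => (setIntegral_mono_on (h3 s)
    (((hF s).add (hF' s)).const_mul _) measurableSet_Ioi (h2 s)).trans_eq
    ((integral_const_mul _ _).trans (congrArg _ (integral_add (hF s) (hF' s))))
  replace h4 := h4.trans_eq ((integral_const_mul _ _).trans (congrArg _ (integral_add (i hu) (i hu'))))
  rw [← Finset.mul_sum, Finset.sum_add_distrib] at h5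
  refine ⟨h3, ?_⟩
  unfold Gm.Q Gm.q0
  linarith

theorem q_ul (hg : g.OK) {ε : ℝ} (hε : 0 < ε) (hu : Continuous u) (h : g.Ul 0 u r) :
    g.Fi (fun _ => ε) u ∧
      g.Q (fun _ => ε) u ≤ (1 + Fintype.card A * (1 - exp (-(2 * ε)))⁻¹) * r ^ 2 := by
  have h1 := fun s => geo_int (a := 2 * ε) (by positivity) ((contOn_n2 (g := g) (s := s) hu).mono
    fun _ e => mem_Ioi.2 (neg_one_lt_zero.trans_le e)) (n2_nn u) fun τ hτ =>
    (NS0_Icc (by linarith) hu _).symm.trans_le (nS_le.1 (h.2 s τ hτ)).2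
  have h2 := Finset.sum_le_sum fun s (_ : s ∈ Finset.univ) => (h1 s).2
  rw [Finset.sum_const, Finset.card_univ, nsmul_eq_mul] at h2
  have h3 : g.q0 u ≤ r ^ 2 :=
    (NS_mono (FS0 (hg.cpt 1) hu) (cor_mono zero_le_one)).trans (ul_NS h none)
  exact ⟨fun s => (h1 s).1, (add_le_add h3 h2).trans_eq (by ring)⟩

/-- small on a large part of `X` and bounded -/
theorem q_small (hg : g.OK) {ε : ℝ} (hε : 0 < ε) : ∃ K ≥ 0, ∀ (u : X.M → N) (T η B : ℝ), 0 ≤ T →
    Continuous u → (∀ x ∈ g.cor T, ‖u x‖ ≤ η) → (∀ x, ‖u x‖ ≤ B) →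
    g.Fi (fun _ => ε) u ∧ g.Q (fun _ => ε) u ≤ K * (η ^ 2 + B ^ 2 * exp (-ε * T)) := by
  refine ⟨g.F.μ.real (g.cor 0) + ∑ s, (g.D s).F.μ.real univ * ε⁻¹, by positivity,
    fun u T η B hT hu h1 h2 => ?_⟩
  set R := η ^ 2 + B ^ 2 * exp (-ε * T) with hR
  have e1 : η ^ 2 ≤ R := le_add_of_nonneg_right (by positivity)
  have h3 : ∀ s, ∀ τ ∈ Ioi (0 : ℝ), g.n2 s u τ * exp (-(2 * ε) * τ) ≤
      (g.D s).F.μ.real univ * R * exp (-ε * τ) := fun s τ hτ => by
    rw [show -(2 * ε) * τ = -ε * τ + -ε * τ by ring, exp_add, ← mul_assoc, ← sl_const (τ := τ),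
      mul_comm (g.n2 s u τ), n2_eq, ← sl_mul]
    refine mul_le_mul_of_nonneg_right (sl_mono (continuous_const.mul (hu.norm.pow 2))
      continuous_const (Ioi_sub hτ) fun y => ?_) (exp_pos _).le
    rcases le_total τ T with e | e
    · refine (mul_le_of_le_one_left (sq_nonneg _) (exp_le_one_iff.2 (by nlinarith [mem_Ioi.1 hτ]))).trans
        ((pow_le_pow_left₀ (norm_nonneg _) (h1 _ (mem_cor (s := s) hg ?_ ?_)) 2).trans e1) <;>
        rw [ht_pt (Ioi_sub hτ)]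
      exacts [Ioi_sub hτ, e]
    · refine le_add_of_nonneg_of_le (sq_nonneg η) ((mul_comm _ _).trans_le (mul_le_mul
        (pow_le_pow_left₀ (norm_nonneg _) (h2 _) 2) (exp_le_exp.2 (by nlinarith)) (exp_pos _).le
        (sq_nonneg B)))
  have i1 := exp_neg_integrableOn_Ioi 0 hε
  have h4 : g.Fi (fun _ => ε) u := fun s => (i1.const_mul _).mono'
    ((((contOn_n2 hu).mono Ioi_sub).mul (by fun_prop)).aestronglyMeasurable measurableSet_Ioi)
    ((ae_restrict_mem measurableSet_Ioi).mono fun τ hτ =>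
      (Real.norm_of_nonneg (mul_nonneg (n2_nn u τ) (exp_pos _).le)).trans_le (h3 s τ hτ))
  refine ⟨h4, ?_⟩
  rw [add_mul, Finset.sum_mul]
  refine add_le_add ((setIntegral_mono_on (int_sq (FS0 (hg.cpt 0) hu))
    (continuous_const.continuousOn.integrableOn_compact (hg.cpt 0)) (hg.cpt 0).measurableSet
    fun x hx => (pow_le_pow_left₀ (norm_nonneg _) (h1 x (cor_mono hT hx)) 2).trans e1).trans_eq
    (by simp)) (Finset.sum_le_sum fun s _ => (setIntegral_mono_on (h4 s) (i1.const_mul _)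
      measurableSet_Ioi (h3 s)).trans_eq ?_)
  rw [integral_const_mul, integral_exp_mul_Ioi (by linarith)]
  field_simp
  simp

end Crest.Agent.X212.Ulc97
end
end

-- ▼ part X212/Ulc97/Win
section

/-!
# Row 212, RAD-UL (helper97): windows; elliptic estimate, embeddings, products
-/

set_option autoImplicit false
set_option linter.unusedSectionVars false
set_option maxSynthPendingDepth 5
noncomputable section
open scoped Manifold ContDiff Topology InnerProductSpace NNReal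
open MeasureTheory Set Function Filter Real

namespace Crest.Agent.X212.Ulc97
open An Cyf70 Ell97 Sob92 Rad94 Lw78
open Nd18 (YD BD)
open M (Mf pm)

variable {κ lam A : Type} [Fintype κ] [Fintype lam] [Fintype A] {X : Mf 4}
  {N N' : Type} [NormedAddCommGroup N] [NormedSpace ℝ N] [NormedAddCommGroup N'] [NormedSpace ℝ N']
  {U V W : Type} [NormedAddCommGroup U] [InnerProductSpace ℝ U] [FiniteDimensional ℝ U]
  [NormedAddCommGroup V] [InnerProductSpace ℝ V] [FiniteDimensional ℝ V]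
  [NormedAddCommGroup W] [InnerProductSpace ℝ W] [FiniteDimensional ℝ W]
  {g : Gm X κ lam A} {s : A} {τ r r' R : ℝ} {x : X.M} {u : X.M → N} {k : ℕ} {D : Type}

/-- the width of the margin -/
def ρ (r : ℝ) : ℝ := (2 * (1 + exp r))⁻¹

theorem ρ_pos (r : ℝ) : 0 < ρ r := by unfold ρ; positivity

theorem ρ_lt (r : ℝ) : ρ r < 2⁻¹ := inv_strictAnti₀ two_pos (by linarith [exp_pos r])

theorem ρ_anti (h : r < r') : ρ r' < ρ r :=
  inv_strictAnti₀ (by positivity) (by linarith [exp_lt_exp.2 h])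

variable (g) in
/-- the pieces with margins -/
def SW : Option (A × ℝ≥0) → ℝ → Set X.M
  | none, r => g.cor (1 + ρ r)
  | some p, r => g.ht p.1 ⁻¹' Icc (p.2 - ρ r) (p.2 + 1 + ρ r)

theorem lo_lt (t : ℝ≥0) (r : ℝ) : -2⁻¹ < t - ρ r := by linarith [ρ_lt r, t.2]

theorem S0_sub : ∀ (j : Option (A × ℝ≥0)) (r : ℝ), S0 g j ⊆ SW g j r
  | none, r => cor_mono (by linarith [ρ_pos r])
  | some _, r => preimage_mono (Icc_subset_Icc (by linarith [ρ_pos r]) (by linarith [ρ_pos r]))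

theorem cpt_SW (hg : g.OK) : ∀ (j : Option (A × ℝ≥0)) (r : ℝ), IsCompact (SW g j r)
  | none, _ => hg.cpt _
  | some p, r => isCompact_ht isCompact_Icc (Icc_sub (by linarith [lo_lt p.2 r]) _)

theorem NS_SW (hg : g.OK) (hu : Sm X.I u) (h : g.Ul k u R) (j : Option (A × ℝ≥0)) (r : ℝ) :
    NS g.F.toPre (SW g j r) k u ≤ (Fintype.card A + 3) * R ^ 2 := by
  have f := fun j => FS_of_compact (F := g.F.toPre) (cpt_S0 hg j) k hu
  have h2 : (0 : ℝ) ≤ Fintype.card A * R ^ 2 := by positivity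
  have hρ := ρ_lt r
  cases j with
  | none =>
    refine (NS_cover (R := fun s => S0 g (some (s, 1))) (f none) (fun _ => f _) fun x hx => ?_).trans
      ((add_le_add (ul_NS h _) (Finset.sum_le_sum fun s _ => ul_NS h _)).trans ?_)
    · refine or_iff_not_imp_left.2 fun e => ?_
      obtain ⟨s, hs⟩ := not_forall.1 e
      exact mem_iUnion.2 ⟨s, (not_le.1 hs).le, (hx s).trans (by simp; linarith)⟩
    · rw [Finset.sum_const, Finset.card_univ, nsmul_eq_mul]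
      linarith [sq_nonneg R]
  | some p =>
    refine (NS_cover (R := fun b : Bool => S0 g (some (p.1, bif b then p.2 - 2⁻¹ else p.2 + 2⁻¹)))
      (f none) (fun _ => f _) fun x hx => ?_).trans
      ((add_le_add (ul_NS h _) (Finset.sum_le_sum fun s _ => ul_NS h _)).trans ?_)
    · have h1 := hx.1
      have h3 := hx.2
      rcases le_total (g.ht p.1 x) 1 with e | e
      · exact .inl (mem_cor hg (by linarith [lo_lt p.2 r]) e)
      rcases le_total (g.ht p.1 x) (p.2 + 2⁻¹) with e' | e'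
      · have : ((p.2 - 2⁻¹ : ℝ≥0) : ℝ) = p.2 - 2⁻¹ := by
          rw [NNReal.coe_sub (NNReal.coe_le_coe.1 (by simp; linarith))]; simp
        exact .inr (mem_iUnion.2 ⟨true, this.trans_le (by linarith), e'.trans (by
          simp only [cond, this]; linarith)⟩)
      · exact .inr (mem_iUnion.2 ⟨false, by simpa using e', h3.trans (by simp; linarith)⟩)
    · rw [Finset.sum_const, Finset.card_univ, nsmul_eq_mul, Fintype.card_bool]
      push_cast
      linarith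

theorem ul_one (hg : g.OK) : ∃ R, ∀ k, g.Ul k (fun _ => (1 : ℝ)) R := by
  have h0 : 0 ≤ ∑ s, (g.D s).F.μ.real univ := by positivity
  have h1 : 0 ≤ g.F.μ.real (g.cor 0) := by positivity
  have := ul_n (u := fun _ => (1 : ℝ)) (r := √(g.F.μ.real (g.cor 0) + ∑ s, (g.D s).F.μ.real univ))
    hg continuous_const (sqrt_nonneg _) (by simpa [Gm.q0, sq_sqrt (add_nonneg h1 h0)] using h0)
    fun s τ _ => by
      simpa [Gm.n2, sq_sqrt (add_nonneg h1 h0)] using le_add_of_nonneg_of_le h1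
        (Finset.single_le_sum (f := fun s => (g.D s).F.μ.real univ) (fun _ _ => by positivity)
          (Finset.mem_univ s))
  exact ⟨_, fun k => ul_of (ul_nn this) fun j =>
    ((NS_one k).trans (NS_one 0).symm).trans_le (ul_NS this j)⟩

theorem cut_SW (hg : g.OK) (h : r < r') : ∃ C, ∀ j, ∃ φ : X.M → ℝ, g.F.CBs φ C ∧
    tsupport φ ⊆ SW g j r ∧ ∀ x ∈ SW g j r', φ =ᶠ[𝓝 x] fun _ => 1 := by
  have := lcs (I := X.I) (M := X.M)
  have h1 := ρ_anti h
  have h2 := ρ_pos r'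
  obtain ⟨f, f1, f0, -⟩ := exists_contMDiffMap_one_nhds_of_subset_interior (n := ⊤) X.I
    (isClosed_cor g (1 + ρ r')) (t := g.cor (1 + ρ r)) fun x hx => mem_interior_iff_mem_nhds.2
      (eventually_all.2 fun s => (cont_ht g s).continuousAt.eventually_le_const
        ((hx s).trans_lt (by linarith)))
  have f2 : tsupport f ⊆ g.cor (1 + ρ r) :=
    closure_minimal (fun x hx => by_contra fun e => hx (f0 x e)) (isClosed_cor g _)
  obtain ⟨C1, c1⟩ := Cb_of_hcs (F := g.F.toPre) f.contMDiff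
    ((hg.cpt _).of_isClosed_subset (isClosed_tsupport _) f2)
  let b : ContDiffBump (2⁻¹ : ℝ) := ⟨2⁻¹ + (ρ r + ρ r') / 2, 2⁻¹ + ρ r, by linarith, by linarith⟩
  obtain ⟨C2, c2⟩ := Cht98.deriv_bounds (b.contDiff (n := ⊤)) b.hasCompactSupport.deriv (B := 1)
    fun t => (abs_of_nonneg b.nonneg).trans_le b.le_one
  have z : ∀ t, t ∉ Icc (-ρ r) (1 + ρ r) → b t = 0 := fun t ht => b.zero_of_le_dist (by
    rw [Real.dist_eq, le_abs]
    rcases not_and_or.1 ht with e | e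
    · right; show 2⁻¹ + ρ r ≤ _; linarith [not_le.1 e]
    · left; show 2⁻¹ + ρ r ≤ _; linarith [not_le.1 e])
  refine ⟨fun k => max (C1 k) |C2 k|, fun j => ?_⟩
  cases j with
  | none => exact ⟨f, CBs_mono c1 fun _ => le_max_left _ _, f2, fun x hx =>
      (eventually_nhdsSet_iff_forall.1 f1) x hx⟩
  | some p =>
    refine ⟨fun x => b (g.ht p.1 x + -p.2), CBs_mono (CBs_rad (b := p.2 - ρ r)
      (by linarith [lo_lt p.2 r]) (BD.shift ⟨b.contDiff, c2⟩ _) fun t ht => z _ fun e => by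
        linarith [e.1]) fun _ => le_max_right _ _, closure_minimal (fun x hx => by_contra fun e =>
      hx (z _ fun e' => e ⟨by linarith [e'.1], by linarith [e'.2]⟩))
      (isClosed_Icc.preimage (cont_ht g _)), fun x hx => ?_⟩
    refine ((cont_ht g p.1).add_const _).continuousAt.eventually (b.eventuallyEq_one_of_mem_ball ?_)
    rw [Metric.mem_ball, Real.dist_eq, abs_lt]
    exact ⟨show -(2⁻¹ + (ρ r + ρ r') / 2) < _ by linarith [hx.1],
      show _ < 2⁻¹ + (ρ r + ρ r') / 2 by linarith [hx.2]⟩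

/-- the windows -/
def wn (hg : g.OK) (ϖ : D → Option (A × ℝ≥0)) : Wn g.F.toPre D where
  S d := SW g (ϖ d)
  cpt d := cpt_SW hg (ϖ d)
  cut _ _ h := (cut_SW hg h).imp fun _ e d => e (ϖ d)
  vol r _ := let ⟨_, h⟩ := ul_one hg
    ⟨_, fun d => (NS_one 0).symm.trans_le (NS_SW hg contMDiff_const (h 0) (ϖ d) r)⟩

theorem jt_of_ul (hg : g.OK) (ϖ : D → Option (A × ℝ≥0)) {f : D → X.M → N}
    (hs : ∀ d, Sm X.I (f d)) (h : ∀ d, g.Ul k (f d) R) : (wn hg ϖ).Jt 2 (k + 1) f :=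
  .of_ns hs fun r _ => ⟨_, fun d => NS_SW hg (hs d) (h d) (ϖ d) r⟩

theorem ns_of_jt {hg : g.OK} {ϖ : D → Option (A × ℝ≥0)} {f : D → X.M → N}
    (h : (wn hg ϖ).Jt 2 (k + 1) f) : ∃ K, ∀ d, nS g.F.toPre (S0 g (ϖ d)) k (f d) ≤ K :=
  let ⟨K, e⟩ := h.ns 1 one_pos
  ⟨√K, fun d => sqrt_le_sqrt ((NS_mono (FS_of_compact (cpt_SW hg _ 1) k (h.sm d))
    (S0_sub _ 1)).trans (e d))⟩

theorem ul_of_jt {hg : g.OK} {f : D → X.M → N}
    (h : (wn hg (Prod.snd : D × _ → _)).Jt 2 (k + 1) fun d => f d.1) : ∃ K, ∀ d, g.Ul k (f d) K :=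
  (ns_of_jt h).imp fun _ e d => ul_iff.2 fun j => e (d, j)

theorem ul_el (hg : g.OK) {P : Op X.M (Option κ) V W} (hP : ∃ C, P.Good g.F C) (hc : P.CliffL g.F)
    (k : ℕ) : ∃ C, ∀ u r, Sc P.p u → g.Ul k (P.app g.F u) r → g.Ul k u r →
      g.Ul (k + 1) u (C * r) := by
  obtain ⟨C, hF⟩ := hg.tame
  obtain ⟨C', hP⟩ := hP
  obtain ⟨K, K0, hK⟩ := Wn.est (w := wn hg id) hF hP hc zero_lt_one k
  refine ⟨√(K * (2 * (Fintype.card A + 3))), fun u r hu h1 h2 =>
    ul_of (mul_nonneg (sqrt_nonneg _) (ul_nn h2)) fun j => ?_⟩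
  refine (NS_mono (FS_of_compact (cpt_SW hg _ 1) _ hu.1) (S0_sub j 1)).trans
    ((hK j u hu.1 hu.2).trans ((mul_le_mul_of_nonneg_left (add_le_add
      (NS_SW hg (sm_app hP hu.1) h1 j 0) (NS_SW hg hu.1 h2 j 0)) K0).trans_eq ?_))
  rw [mul_pow, sq_sqrt (by positivity)]; ring

/-- cut-off copies -/
theorem ul_cut (hg : g.OK) (k : ℕ) : ∃ K ≥ 0, ∀ j, ∃ φ : X.M → ℝ, Sm X.I φ ∧ HasCompactSupport φ ∧
    (∀ x ∈ S0 g j, φ =ᶠ[𝓝 x] fun _ => 1) ∧ ∀ (N : Type) [NormedAddCommGroup N] [NormedSpace ℝ N]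
      (u : X.M → N) r, ∀ i ≤ k, Sm X.I u → g.Ul i u r →
      N2 g.F.toPre i (fun x => φ x • u x) ≤ K * r ^ 2 := by
  obtain ⟨C, φ, h1, h2, h3, h4⟩ := (wn hg id).cut' zero_lt_one
  refine ⟨(cK (Option κ) k * C k) ^ 2 * (Fintype.card A + 3), by positivity, fun j =>
    ⟨φ j, (h1 j).1, h3 j, fun x hx => h4 j x (S0_sub j 1 hx), fun N _ _ u r i hi hu h => ?_⟩⟩
  rw [← NS_of_tsupport i ((tsupport_smul_subset_left _ _).trans (h2 j)), mul_assoc]
  refine (NS_smul (h1 j).1 hu (CB_of_le ((h1 j).2 k) hi) (FS_of_compact (cpt_SW hg j 0) i hu)).2.trans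
    (mul_le_mul ?_ (NS_SW hg hu h j 0) (n2_nonneg _ _) (sq_nonneg _))
  rw [mul_pow, mul_pow, cK_sq, cK_sq]
  exact mul_le_mul_of_nonneg_right (pow_le_pow_right₀ (by
    linarith [Nat.cast_nonneg (α := ℝ) (Fintype.card (Option κ))]) hi) (sq_nonneg _)

theorem ul_sup (hg : g.OK) (k : ℕ) : ∃ C, ∀ (u : X.M → N) r, Sm X.I u → g.Ul (k + 4) u r →
    g.F.CB k u (C * r) := by
  obtain ⟨C, hF⟩ := hg.tame
  obtain ⟨K, K0, h⟩ := ul_cut hg (k + 4)
  refine ⟨√(|C 0| * K), fun u r hu hr w hw x => ?_⟩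
  obtain ⟨j, hj⟩ := exists_S0 (g := g) x
  obtain ⟨φ, h1, h2, h3, h4⟩ := h j
  rw [Dw_congr w (v := fun x => φ x • u x) ((h3 x hj).mono fun y hy => by simp [hy])]
  refine (CB_iff.2 ((Sup.of_tame hF).cb (k + 1) (h1.smul hu) h2.smul_right) w hw x).trans
    (sqrt_le_iff.2 ⟨mul_nonneg (sqrt_nonneg _) (ul_nn hr), ?_⟩)
  rw [mul_pow, sq_sqrt (by positivity), mul_assoc]
  exact mul_le_mul_of_nonneg_left (h4 N u r _ le_rfl hu hr) (abs_nonneg _)

theorem ul_mul (hg : g.OK) {N'' : Type} [NormedAddCommGroup N''] [NormedSpace ℝ N'']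
    (B : N →L[ℝ] N' →L[ℝ] N'') {f : X.M → N} {v : X.M → N'} {c : ℝ} (hf : Sm X.I f) (hv : Sm X.I v)
    (hc : g.F.CB k f c) (h : g.Ul k v r) :
    g.Ul k (fun x => B (f x) (v x)) (cK (Option κ) k * ‖B‖ * c * r) := by
  obtain ⟨x⟩ := hg.con.toNonempty
  have := (norm_nonneg _).trans (CB_bound hc x)
  have := cK_nonneg (ι := Option κ) k
  refine ul_of (mul_nonneg (by positivity) (ul_nn h)) fun j =>
    (NS_mul B hf hv hc (FS_of_compact (cpt_S0 hg j) k hv)).2.trans ?_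
  rw [mul_pow _ r]
  exact mul_le_mul_of_nonneg_left (ul_NS h j) (sq_nonneg _)

theorem ul_cb (hg : g.OK) (k : ℕ) : ∃ C, ∀ (u : X.M → N) r, Sm X.I u → g.F.CB k u r →
    g.Ul k u (C * r) := by
  obtain ⟨R, h⟩ := ul_one hg
  refine ⟨cK (Option κ) k * ‖(ContinuousLinearMap.lsmul ℝ ℝ : ℝ →L[ℝ] N →L[ℝ] N).flip‖ * R,
    fun u r hu hr => ?_⟩
  have := ul_mul hg (ContinuousLinearMap.lsmul ℝ ℝ : ℝ →L[ℝ] N →L[ℝ] N).flip hu contMDiff_const hr (h k)
  rw [mul_right_comm]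
  simpa using this

variable (U V W) in
/-- the universal bilinear map -/
def tn : U →L[ℝ] V →L[ℝ] (U →L[ℝ] V →L[ℝ] W) →L[ℝ] W :=
  (ContinuousLinearMap.compL ℝ (U →L[ℝ] V →L[ℝ] W) (V →L[ℝ] W) W).flip.bilinearComp
    (ContinuousLinearMap.apply ℝ (V →L[ℝ] W)) (ContinuousLinearMap.apply ℝ W)

/-- from normalized bounds to homogeneous bounds -/
theorem hom (hg : g.OK) {P : (X.M → U) → ℝ → Prop} {P' : (X.M → V) → ℝ → Prop}
    (p : ∀ a r, Sm X.I a → P a r → 0 ≤ r ∧ ∀ t > r, P (t⁻¹ • a) 1)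
    (p' : ∀ a r, Sm X.I a → P' a r → 0 ≤ r ∧ ∀ t > r, P' (t⁻¹ • a) 1)
    (h : ∃ K, ∀ a u, Sm X.I a → Sm X.I u → P a 1 → P' u 1 →
      g.Ul k (fun x => tn U V W (a x) (u x)) K) :
    ∃ C, ∀ (b : X.M → U →L[ℝ] V →L[ℝ] W) a u c r r', Sm X.I b → Sm X.I a → Sm X.I u →
      g.F.CB k b c → P a r → P' u r' → g.Ul k (fun x => b x (a x) (u x)) (C * c * r * r') := by
  obtain ⟨K, h⟩ := h
  refine ⟨cK (Option κ) k * ‖(ContinuousLinearMap.id ℝ ((U →L[ℝ] V →L[ℝ] W) →L[ℝ] W)).flip‖ * K,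
    fun b a u c r r' hb ha hu hc h1 h2 => ?_⟩
  have k1 : g.Ul k (fun x => tn U V W (a x) (u x)) (r * r' * K) := ul_iff.2 fun j => by
    have t1 : Tendsto (fun ε : ℝ => (r + ε) * (r' + ε) * K) (𝓝[>] 0) (𝓝 ((r + 0) * (r' + 0) * K)) :=
      (Continuous.tendsto (by fun_prop) 0).mono_left nhdsWithin_le_nhds
    rw [add_zero, add_zero] at t1
    refine ge_of_tendsto t1 (eventually_mem_nhdsWithin.mono fun ε (hε : 0 < ε) => ?_)
    have e1 : 0 < r + ε := by linarith [(p a r ha h1).1]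
    have e2 : 0 < r' + ε := by linarith [(p' u r' hu h2).1]
    have s1 : Sm X.I ((r + ε)⁻¹ • a) := (contMDiff_const (I' := 𝓘(ℝ, ℝ))).smul ha
    have s2 : Sm X.I ((r' + ε)⁻¹ • u) := (contMDiff_const (I' := 𝓘(ℝ, ℝ))).smul hu
    have := ul_smul hg (smooth_bil _ s1 s2) (h _ _ s1 s2 ((p a r ha h1).2 _ (by linarith))
      ((p' u r' hu h2).2 _ (by linarith))) ((r + ε) * (r' + ε))
    rw [abs_of_pos (mul_pos e1 e2)] at this
    refine le_of_eq_of_le (congrArg _ (funext fun x => ?_)) (ul_iff.1 this j)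
    simp only [Pi.smul_apply, map_smul, smul_apply, smul_smul]
    rw [show (r + ε) * (r' + ε) * ((r' + ε)⁻¹ * (r + ε)⁻¹) = 1 by field_simp, one_smul]
  exact ul_mono (ul_mul hg (ContinuousLinearMap.id ℝ ((U →L[ℝ] V →L[ℝ] W) →L[ℝ] W)).flip hb
    (smooth_bil _ ha hu) hc k1) le_rfl (le_of_eq (by ring))

theorem sc_ul (hg : g.OK) (k : ℕ) (a : X.M → N) (r : ℝ) (ha : Sm X.I a) (h : g.Ul k a r) :
    0 ≤ r ∧ ∀ t > r, g.Ul k (t⁻¹ • a) 1 := ⟨ul_nn h, fun t ht => by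
  have e := (ul_nn h).trans_lt ht
  refine ul_mono (ul_smul hg ha h _) le_rfl ?_
  rw [abs_of_pos (inv_pos.2 e), inv_mul_le_one₀ e]
  exact ht.le⟩

theorem sc_ub (hg : g.OK) (k : ℕ) (a : X.M → N) (r : ℝ) (ha : Sm X.I a)
    (h : g.Ul k a r ∧ ∀ x, ‖a x‖ ≤ r) :
    0 ≤ r ∧ ∀ t > r, g.Ul k (t⁻¹ • a) 1 ∧ ∀ x, ‖(t⁻¹ • a) x‖ ≤ 1 :=
  ⟨ul_nn h.1, fun t ht => ⟨(sc_ul hg k a r ha h.1).2 t ht, fun x => by
    have e := (ul_nn h.1).trans_lt ht
    rw [Pi.smul_apply, norm_smul, Real.norm_of_nonneg (inv_pos.2 e).le, inv_mul_le_one₀ e]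
    exact (h.2 x).trans ht.le⟩⟩

variable (U V W)

theorem ul_prod (hg : g.OK) (hk : 7 ≤ k) : ∃ C, ∀ (b : X.M → U →L[ℝ] V →L[ℝ] W) (a : X.M → U)
    (u : X.M → V) c r r', ∀ j ≤ k, Sm X.I b → Sm X.I a → Sm X.I u → g.F.CB k b c → g.Ul k a r →
      g.Ul j u r' → g.Ul j (fun x => b x (a x) (u x)) (C * c * r * r') := by
  obtain ⟨S, hF⟩ := hg.tame
  obtain ⟨K, K0, h⟩ := ul_cut hg k
  have h1 := fun j : Fin (k + 1) => hom (U := U) (V := V) (W := W) (k := j) hg (sc_ul hg k)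
    (sc_ul hg j) ⟨√(2 * |S 0| * (cK (Option κ) j * ‖tn U V W‖) ^ 2 * K * K), fun a u ha hu e e' =>
      ul_iff.2 fun i => sqrt_le_sqrt <| by
    obtain ⟨φ, h1, h2, h3, h4⟩ := h i
    have hj := Nat.lt_succ_iff.1 j.2
    rw [NS_congr (v := fun x => tn U V W (φ x • a x) (φ x • u x)) (cpt_S0 hg i).measurableSet j
      fun x hx => (h3 x hx).mono fun y hy => by simp only [hy, one_smul]]
    refine (NS_le (FL_of_hcs j (smooth_bil _ (h1.smul ha) (h1.smul hu))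
      (hcs_bil_left _ _ h2.smul_right)) _).trans (((Sup.of_tame hF).N2_bil _ hj le_rfl (by omega)
      (h1.smul ha) h2.smul_right (h1.smul hu) h2.smul_right).trans ?_)
    have a1 := h4 U a 1 k le_rfl ha e
    have a2 := h4 V u 1 j hj hu e'
    rw [one_pow, mul_one] at a1 a2
    exact mul_le_mul (mul_le_mul_of_nonneg_left a1 (by positivity)) a2 (n2_nonneg _ _)
      (by positivity)⟩
  choose C hC using h1
  refine ⟨∑ j, |C j|, fun b a u c r r' j hj hb ha hu hc e e' => ul_mono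
    (hC ⟨j, Nat.lt_succ_of_le hj⟩ b a u c r r' hb ha hu (CB_of_le hc hj) e e') le_rfl ?_⟩
  obtain ⟨x⟩ := hg.con.toNonempty
  have := (norm_nonneg _).trans (CB_bound hc x)
  have := ul_nn e
  have := ul_nn e'
  gcongr
  exact (le_abs_self _).trans (Finset.single_le_sum (f := fun j => |C j|) (fun _ _ => abs_nonneg _)
    (Finset.mem_univ _))

theorem ul_l4 (hg : g.OK) (k : ℕ) : ∃ C, ∀ (b : X.M → U →L[ℝ] V →L[ℝ] W) (a : X.M → U)
    (u : X.M → V) c r r', Sm X.I b → Sm X.I a → Sm X.I u → g.F.CB k b c →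
      (g.Ul (k + 1) a r → g.Ul (k + 1) u r' → g.Ul k (fun x => b x (a x) (u x)) (C * c * r * r')) ∧
      (g.Ul k a r → (∀ x, ‖a x‖ ≤ r) → g.Ul k u r' → (∀ x, ‖u x‖ ≤ r') →
        g.Ul k (fun x => b x (a x) (u x)) (C * c * r * r')) := by
  obtain ⟨S, hF⟩ := hg.tame
  obtain ⟨C1, h1⟩ := hom (U := U) (V := V) (W := W) (k := k) hg (sc_ul hg (k + 1))
    (sc_ul hg (k + 1)) <| by
    obtain ⟨K, h⟩ := ul_of_jt (D := {d : (X.M → U) × (X.M → V) // (Sm X.I d.1 ∧ Sm X.I d.2) ∧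
      g.Ul (k + 1) d.1 1 ∧ g.Ul (k + 1) d.2 1}) (f := fun d x => tn U V W (d.1.1 x) (d.1.2 x))
      (.bil (tn U V W) hol4 ((jt_of_ul hg _ (fun d => d.1.2.1.1) fun d => d.1.2.2.1).sob4 hF)
        ((jt_of_ul hg _ (fun d => d.1.2.1.2) fun d => d.1.2.2.2).sob4 hF))
    exact ⟨K, fun a u ha hu e e' => h ⟨(a, u), ⟨ha, hu⟩, e, e'⟩⟩
  obtain ⟨C2, h2⟩ := hom (U := U) (V := V) (W := W) (k := k) hg (sc_ub hg k) (sc_ub hg k) <| by
    obtain ⟨K, h⟩ := ul_of_jt (D := {d : (X.M → U) × (X.M → V) // (Sm X.I d.1 ∧ Sm X.I d.2) ∧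
      (g.Ul k d.1 1 ∧ ∀ x, ‖d.1 x‖ ≤ 1) ∧ g.Ul k d.2 1 ∧ ∀ x, ‖d.2 x‖ ≤ 1})
      (f := fun d x => tn U V W (d.1.1 x) (d.1.2 x))
      (.alg hF (tn U V W) (jt_of_ul hg _ (fun d => d.1.2.1.1) fun d => d.1.2.2.1.1)
        (Wn.lp0 fun _ _ => ⟨1, fun d x _ => d.1.2.2.1.2 x⟩)
        (jt_of_ul hg _ (fun d => d.1.2.1.2) fun d => d.1.2.2.2.1)
        (Wn.lp0 fun _ _ => ⟨1, fun d x _ => d.1.2.2.2.2 x⟩))
    exact ⟨K, fun a u ha hu e e' => h ⟨(a, u), ⟨ha, hu⟩, e, e'⟩⟩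
  refine ⟨max C1 C2, fun b a u c r r' hb ha hu hc => ?_⟩
  obtain ⟨x⟩ := hg.con.toNonempty
  have := (norm_nonneg _).trans (CB_bound hc x)
  refine ⟨fun e e' => ul_mono (h1 b a u c r r' hb ha hu hc e e') le_rfl ?_, fun e f e' f' =>
    ul_mono (h2 b a u c r r' hb ha hu hc ⟨e, f⟩ ⟨e', f'⟩) le_rfl ?_⟩ <;>
    have := ul_nn e <;> have := ul_nn e' <;> gcongr
  exacts [le_max_left _ _, le_max_right _ _]

end Crest.Agent.X212.Ulc97
end
end

-- ▼ part X212/Ulc97/Rad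

/-!
# Row 212, RAD-UL (helper97): traces; multiplication by a function of the norm of the slices
-/

set_option autoImplicit false
set_option linter.unusedSectionVars false
noncomputable section
open scoped Manifold ContDiff Topology InnerProductSpace NNReal
open MeasureTheory Set Function Filter Real

namespace Crest.Agent.X212.Ulc97
open An Cyf70 Ell97 Sob92 Rad94 Lw78
open Nd18 (YD BD)
open M (Mf pm)

theorem trace1 {φ φ' ψ : ℝ → ℝ} {a b τ : ℝ} (hab : a + 1 ≤ b) (hτ : τ ∈ Icc a b)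
    (hd : ∀ t ∈ Icc a b, HasDerivAt φ (φ' t) t) (c' : ContinuousOn φ' (Icc a b))
    (cψ : ContinuousOn ψ (Icc a b)) (h0 : ∀ t, 0 ≤ φ t) (hb : ∀ t ∈ Icc a b, |φ' t| ≤ ψ t) :
    φ τ ≤ (∫ t in Icc a b, φ t) + ∫ t in Icc a b, ψ t := by
  have c : ContinuousOn φ (Icc a b) := fun t ht => (hd t ht).continuousAt.continuousWithinAt
  obtain ⟨σ, hσ, hm⟩ := isCompact_Icc.exists_isMinOn ⟨τ, hτ⟩ c
  have h1 : φ σ ≤ ∫ t in Icc a b, φ t := by
    refine le_trans ?_ (setIntegral_mono_on (continuousOn_const.integrableOn_compact isCompact_Icc)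
      (c.integrableOn_compact isCompact_Icc) measurableSet_Icc fun t ht => hm ht)
    rw [setIntegral_const, Real.volume_real_Icc_of_le (by linarith), smul_eq_mul]
    nlinarith [h0 σ]
  have u := uIcc_subset_Icc hσ hτ
  have h2 := intervalIntegral.integral_eq_sub_of_hasDerivAt (fun t ht => hd t (u ht))
    (c'.mono u).intervalIntegrable
  have h3 := (intervalIntegral.norm_integral_le_integral_norm_uIoc (f := φ') (a := σ) (b := τ)
    (μ := volume)).trans ((setIntegral_mono_set (c'.norm.integrableOn_compact isCompact_Icc)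
      (.of_forall fun _ => norm_nonneg _) (uIoc_subset_uIcc.trans u).eventuallyLE).trans
      (setIntegral_mono_on (c'.norm.integrableOn_compact isCompact_Icc)
        (cψ.integrableOn_compact isCompact_Icc) measurableSet_Icc hb))
  rw [h2] at h3
  linarith [le_abs_self (φ τ - φ σ), Real.norm_eq_abs (φ τ - φ σ)]

variable {κ lam A : Type} [Fintype κ] [Fintype lam] [Fintype A] {X : Mf 4}
  {V : Type} [NormedAddCommGroup V] [InnerProductSpace ℝ V]
  {g : Gm X κ lam A} {s : A} {τ r : ℝ} {x : X.M} {u v : X.M → V} {k : ℕ} {D : Type}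

variable (g s) in
/-- the inner product of the slices -/
def ips (u v : X.M → V) : ℝ → ℝ := sl g s fun x => ⟪u x, v x⟫_ℝ

theorem ips_self (u : X.M → V) : ips g s u u = g.n2 s u := by
  simp only [ips, real_inner_self_eq_norm_sq, n2_eq]

theorem ips_comm (u v : X.M → V) : ips g s u v = ips g s v u := by
  simp only [ips, real_inner_comm]

theorem ips_sq (hu : Continuous u) (hv : Continuous v) (h : -1 < τ) :
    ips g s u v τ ^ 2 ≤ g.n2 s u τ * g.n2 s v τ := by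
  have := discrim_le_zero (a := g.n2 s u τ) (b := 2 * ips g s u v τ) (c := g.n2 s v τ) fun l => by
    have e := n2_nn (g := g) (s := s) (fun x => l • u x + v x) τ
    simp only [n2_eq, norm_add_sq_real, norm_smul, mul_pow, Real.norm_eq_abs, sq_abs,
      real_inner_smul_left, ← mul_assoc] at e
    rw [sl_add (by fun_prop) (by fun_prop) h, sl_add (by fun_prop) (by fun_prop) h, sl_mul,
      sl_mul] at e
    simp only [n2_eq, ips]
    linarith
  rw [discrim] at this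
  linarith

theorem ips_abs (hu : Continuous u) (hv : Continuous v) (h : -1 < τ) :
    2 * |ips g s u v τ| ≤ g.n2 s u τ + g.n2 s v τ :=
  abs_le_of_sq_le_sq' (by
    rw [mul_pow, sq_abs]
    nlinarith [ips_sq (g := g) (s := s) hu hv h, sq_nonneg (g.n2 s u τ - g.n2 s v τ)])
    (add_nonneg (n2_nn u τ) (n2_nn v τ)) |>.2

theorem hasDerivAt_ips (hu : Sm X.I u) (hv : Sm X.I v) (h : -1 < τ) : HasDerivAt (ips g s u v)
    (g.sg s * (ips g s (g.F.D none u) v τ + ips g s u (g.F.D none v) τ)) τ := by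
  have := hasDerivAt_sl (g := g) (s := s) (sm_inner hu hv) h
  rwa [funext (D_inner g.F.toPre none hu hv), sl_add (sm_inner (g.F.sm_D hu _) hv).continuous
    (sm_inner hu (g.F.sm_D hv _)).continuous h] at this

/-- **the trace estimate** -/
theorem n2_le_NS {a b : ℝ} (ha : -1 < a) (hab : a + 1 ≤ b) (hτ : τ ∈ Icc a b) (hu : Sm X.I u) :
    g.n2 s u τ ≤ 3 * NS g.F.toPre (g.ht s ⁻¹' Icc a b) 1 u := by
  have hD := g.F.sm_D hu none
  have i := Icc_sub ha b
  have c := fun {u v : X.M → V} (hu : Sm X.I u) (hv : Sm X.I v) =>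
    (contOn_sl (g := g) (s := s) (sm_inner hu hv).continuous).mono i
  have h := trace1 (ψ := fun t => g.n2 s (g.F.D none u) t + g.n2 s u t) (φ' := fun t => g.sg s *
    (ips g s (g.F.D none u) u t + ips g s u (g.F.D none u) t)) hab hτ (fun t ht => ips_self (g := g) (s := s) u ▸ hasDerivAt_ips hu hu (i ht))
    (continuousOn_const.mul ((c hD hu).add (c hu hD)))
    (((contOn_n2 hD.continuous).add (contOn_n2 hu.continuous)).mono i) (n2_nn u) fun t ht => by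
      rw [abs_mul, abs_sg, one_mul, ips_comm u, ← two_mul, abs_mul, abs_two]
      exact ips_abs hD.continuous hu.continuous (i ht)
  rw [integral_add (((contOn_n2 hD.continuous).mono i).integrableOn_compact isCompact_Icc)
    (((contOn_n2 hu.continuous).mono i).integrableOn_compact isCompact_Icc),
    ← NS0_Icc ha hu.continuous, ← NS0_Icc ha hD.continuous] at h
  have h1 := n2_dv_le (I := X.I) (e := g.F.e) (μ := g.F.μ.restrict (g.ht s ⁻¹' Icc a b)) 0 u none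
  have h2 := n2_le_succ (I := X.I) (e := g.F.e) (μ := g.F.μ.restrict (g.ht s ⁻¹' Icc a b)) 0 u
  exact h.trans (by simp only [NS, Pre.D_def]; linarith)

/-- a cut-off -/
def θ (t : ℝ) : ℝ := χ (4 * t + 3)

theorem θ_one (h : -2⁻¹ ≤ τ) : θ τ = 1 := smoothTransition.one_of_one_le (by linarith)

theorem θ_zero (v : ℝ → ℝ) : ∀ t < -(3 / 4), θ t * v t = 0 := fun t h => by
  rw [θ, χ, smoothTransition.zero_of_nonpos (by linarith), zero_mul]

variable (g s) in
/-- the inner product of the slices as a function on `X` -/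
def ψ (u v : X.M → V) (x : X.M) : ℝ := θ (g.ht s x) * ips g s u v (g.ht s x)

theorem cd_ψ (hu : Sm X.I u) (hv : Sm X.I v) :
    ContDiffOn ℝ ∞ (fun t => θ t * ips g s u v t) (Ioi (-1)) :=
  (smoothTransition.contDiff.comp (by fun_prop)).contDiffOn.mul (sm_sl (sm_inner hu hv))

theorem sm_ψ (hu : Sm X.I u) (hv : Sm X.I v) : Sm X.I (ψ g s u v) :=
  sm_rad' (by norm_num) (cd_ψ hu hv) (θ_zero _)

theorem D_ψ_some (hu : Sm X.I u) (hv : Sm X.I v) (a : κ) : g.F.D (some a) (ψ g s u v) = 0 :=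
  D_rad_some (by norm_num) (cd_ψ hu hv) (θ_zero _) a

theorem D_ψ_none (hu : Sm X.I u) (hv : Sm X.I v) (hx : -2⁻¹ < g.ht s x) :
    g.F.D none (ψ g s u v) x = ψ g s (g.F.D none u) v x + ψ g s u (g.F.D none v) x := by
  refine (congrFun (D_rad_none (by norm_num) (cd_ψ hu hv) (θ_zero _)) x).trans ?_
  rw [EventuallyEq.deriv_eq (f := ips g s u v) ((lt_mem_nhds hx).mono fun t ht => by
    simp only [θ_one ht.le, one_mul]), (hasDerivAt_ips hu hv (by linarith)).deriv, ψ, ψ,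
    θ_one hx.le, smul_eq_mul, ← mul_assoc, sg_sq]
  simp

section fam
variable {hg : g.OK} {t : D → ℝ≥0} {f f' : D → X.M → V} {H : D → X.M → ℝ} {j : ℕ}

/-- the heights of a window -/
abbrev Iv (t : ℝ≥0) (r : ℝ) : Set ℝ := Icc (t - ρ r) (t + 1 + ρ r)

theorem Iv_lt {t : ℝ≥0} (h : τ ∈ Iv t r) : -1 < τ := by linarith [lo_lt t r, h.1]

variable (hg s t) in
/-- the windows on one end -/
abbrev ws : Wn g.F.toPre D := wn hg fun d => some (s, t d)

variable (g s t) in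
/-- bounded slices -/
def Tr (f : D → X.M → V) : Prop := ∀ r > 0, ∃ K, ∀ d, ∀ τ ∈ Iv (t d) r, g.n2 s (f d) τ ≤ K

theorem tr_of (h : (ws s hg t).Jt 2 (j + 2) f) : Tr g s t f := fun r hr =>
  let ⟨K, e⟩ := (h.of_le (by omega : 1 + 1 ≤ _)).ns r hr
  ⟨3 * K, fun d τ hτ => (n2_le_NS (by linarith [lo_lt (t d) r]) (by linarith [ρ_pos r]) hτ
    (h.sm d)).trans (mul_le_mul_of_nonneg_left (e d) (by norm_num))⟩

theorem ib_sl {φ φ' : D → X.M → ℝ} (h : (ws s hg t).Ib φ') (c : ∀ d, Continuous (φ d))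
    (c' : ∀ d, Continuous (φ' d)) (e : ∀ r > 0, ∃ K ≥ 0, ∀ d, ∀ τ ∈ Iv (t d) r,
      sl g s (φ d) τ ≤ K * sl g s (φ' d) τ) : (ws s hg t).Ib φ := fun r hr => by
  obtain ⟨K, K0, e⟩ := e r hr
  obtain ⟨B, h⟩ := h r hr
  refine ⟨K * B, fun d => ?_⟩
  have l : -1 < t d - ρ r := by linarith [lo_lt (t d) r]
  refine (int_Icc l (c d) _).trans_le ((setIntegral_mono_on (intOn_sl l (c d) _)
    ((intOn_sl l (c' d) _).const_mul K) measurableSet_Icc (e d)).trans ?_)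
  rw [integral_const_mul, ← int_Icc l (c' d)]
  exact mul_le_mul_of_nonneg_left (h d) K0

theorem lp0_ψ (c : ∀ d, Continuous (f d)) (c' : ∀ d, Continuous (f' d)) (h : Tr g s t f)
    (h' : Tr g s t f') : (ws s hg t).Lp 0 fun d => ψ g s (f d) (f' d) := Wn.lp0 fun r hr => by
  obtain ⟨K, h⟩ := h r hr
  obtain ⟨K', h'⟩ := h' r hr
  refine ⟨K + K', fun d x hx => ?_⟩
  rw [ψ, θ_one ((lo_lt _ r).le.trans hx.1), one_mul, Real.norm_eq_abs]
  linarith [ips_abs (g := g) (s := s) (c d) (c' d) (Iv_lt hx), h d _ hx, h' d _ hx,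
    abs_nonneg (ips g s (f d) (f' d) (g.ht s x))]

theorem lp2_ψ (c : ∀ d, Sm X.I (f d)) (c' : ∀ d, Sm X.I (f' d)) (h : (ws s hg t).Lp 2 f)
    (h' : Tr g s t f') : (ws s hg t).Lp 2 fun d => ψ g s (f d) (f' d) :=
  ⟨fun e => absurd e two_ne_zero, ib_sl h.2 (fun d => (sm_ψ (c d) (c' d)).continuous.norm.pow 2)
    (fun d => (c d).continuous.norm.pow 2) fun r hr => by
    obtain ⟨K, h'⟩ := h' r hr
    refine ⟨(g.D s).F.μ.real univ * |K|, by positivity, fun d τ hτ => ?_⟩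
    have e : sl g s (fun x => ‖ψ g s (f d) (f' d) x‖ ^ 2) τ =
        (g.D s).F.μ.real univ * ips g s (f d) (f' d) τ ^ 2 := by
      simp [sl, ψ, ht_pt (Iv_lt hτ), θ_one ((lo_lt _ r).le.trans hτ.1)]
    rw [e, mul_assoc, mul_comm |K|]
    exact mul_le_mul_of_nonneg_left ((ips_sq (c d).continuous (c' d).continuous (Iv_lt hτ)).trans
      (mul_le_mul_of_nonneg_left ((h' d τ hτ).trans (le_abs_self K)) (n2_nn _ _))) (by positivity)⟩

theorem jt_ψ {p : ℕ} (c : ∀ d, Sm X.I (f d)) (c' : ∀ d, Sm X.I (f' d))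
    (h0 : (ws s hg t).Lp p fun d => ψ g s (f d) (f' d))
    (h1 : (ws s hg t).Jt p j fun d => ψ g s (g.F.D none (f d)) (f' d))
    (h2 : (ws s hg t).Jt p j fun d => ψ g s (f d) (g.F.D none (f' d))) :
    (ws s hg t).Jt p (j + 1) fun d => ψ g s (f d) (f' d) :=
  ⟨fun d => sm_ψ (c d) (c' d), h0, fun a => by
    cases a with
    | none => exact (h1.add h2).congr (fun d => g.F.sm_D (sm_ψ (c d) (c' d)) _) fun r _ d x hx =>
        D_ψ_none (c d) (c' d) ((lo_lt _ r).trans_le hx.1)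
    | some a => exact (Wn.Jt.cb (Cb_const 0)).eq fun d => congrFun (D_ψ_some (c d) (c' d) a)⟩

theorem ψ0 : ∀ {j : ℕ} {f f' : D → X.M → V}, (ws s hg t).Jt 2 (j + 1) f →
    (ws s hg t).Jt 2 (j + 1) f' → (ws s hg t).Jt 0 j fun d => ψ g s (f d) (f' d)
  | 0, _, _, h, h' => fun d => sm_ψ (h.sm d) (h'.sm d)
  | _ + 1, _, _, h, h' => jt_ψ h.sm h'.sm (lp0_ψ h.ct h'.ct (tr_of h) (tr_of h'))
      (ψ0 (h.D _) h'.pred) (ψ0 h.pred (h'.D _))

theorem ψL : ∀ {j : ℕ} {f f' : D → X.M → V}, (ws s hg t).Jt 2 j f →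
    (ws s hg t).Jt 2 (j + 1) f' → (ws s hg t).Jt 2 j fun d => ψ g s (f d) (f' d)
  | 0, _, _, h, h' => fun d => sm_ψ (h.sm d) (h'.sm d)
  | _ + 1, _, _, h, h' => jt_ψ h.sm h'.sm (lp2_ψ h.sm h'.sm h.lp (tr_of h'))
      (ψL (h.D _) h'.pred) (ψ0 h (h'.D _)).of0

theorem ψ2 (h : (ws s hg t).Jt 2 (j + 2) f) :
    (ws s hg t).Jt 2 (j + 2) fun d => ψ g s (f d) (f d) :=
  jt_ψ h.sm h.sm (lp2_ψ h.sm h.sm h.lp (tr_of h)) (ψL (h.D _) h)
    ((ψL (h.D none) h).eq fun d x => by rw [ψ, ψ, ips_comm])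

variable (g s) in
/-- constant on the slices -/
def Ra (H : X.M → ℝ) : Prop := ∀ τ > -1, ∀ y y', H (g.pt s τ y) = H (g.pt s τ y')

theorem Ra.der {H : X.M → ℝ} (h : Ra g s H) (hs : Sm X.I H) : ∀ a, Ra g s (g.F.D a H)
  | none => fun τ hτ y y' => (D_none_of hs hτ ((lt_mem_nhds hτ).mono fun t ht => h t ht y y')).trans
      (D_none_of hs hτ (.of_forall fun _ => rfl)).symm
  | some a => fun τ hτ y y' => (D_some_of hs hτ (fun z => h τ hτ z y) a y).trans
      (D_some_of hs hτ (fun z => h τ hτ z y) a y').symm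

theorem jt_ra (hf : Tr g s t f) : ∀ {j : ℕ} {H : D → X.M → ℝ}, (∀ d, Ra g s (H d)) →
    (ws s hg t).Jt 0 j H → (ws s hg t).Jt 2 (j + 1) H → (ws s hg t).Jt 2 (j + 1) f →
    (ws s hg t).Jt 2 (j + 1) fun d x => H d x • f d x
  | 0, H, ra, _, h, h' => .one (fun d => (h.sm d).smul (h'.sm d)) ⟨fun e => absurd e two_ne_zero,
      ib_sl h.lp.2 (fun d => ((h.ct d).smul (h'.ct d)).norm.pow 2) (fun d => (h.ct d).norm.pow 2)
      fun r hr => by
      obtain ⟨K, hf⟩ := hf r hr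
      obtain ⟨y⟩ := (hg.cY s).toNonempty
      have := openPos (g.D s).F.toPre
      have m : 0 < (g.D s).F.μ.real univ :=
        ENNReal.toReal_pos (isOpen_univ.measure_ne_zero _ ⟨y, trivial⟩) (measure_ne_top _ _)
      refine ⟨|K| / (g.D s).F.μ.real univ, by positivity, fun d τ hτ => ?_⟩
      simp only [sl, fun z => ra d τ (Iv_lt hτ) z y, norm_smul, mul_pow, integral_const_mul,
        integral_const, smul_eq_mul]
      rw [← mul_assoc, div_mul_cancel₀ _ m.ne', mul_comm]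
      exact mul_le_mul_of_nonneg_right ((hf d τ hτ).trans (le_abs_self K)) (sq_nonneg _)⟩
  | _ + 1, H, ra, h0, h, h' => ⟨fun d => (h.sm d).smul (h'.sm d),
      h0.lp.bil (ContinuousLinearMap.lsmul ℝ ℝ) (holL 2) h'.lp h.ct h'.ct, fun a =>
      ((jt_ra hf (fun d => (ra d).der (h.sm d) a) (h0.D a) (h.D a) h'.pred).add
        (h0.smul (h'.D a))).eq fun d x =>
        dv_bil (ContinuousLinearMap.lsmul ℝ ℝ) (h.md d x) (h'.md d x)⟩

end fam

theorem χ_zero (v : ℝ → ℝ) : ∀ t < 0, χ t * v t = 0 := fun _ h => by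
  rw [χ, smoothTransition.zero_of_nonpos h.le, zero_mul]

theorem sm_H {β : ℝ → ℝ} (hβ : ContDiff ℝ ∞ β) (hu : Sm X.I u) :
    Sm X.I fun x => χ (g.ht s x) * β (g.n2 s u (g.ht s x)) :=
  sm_rad' (c := fun t => χ t * β (g.n2 s u t)) neg_one_lt_zero
    (smoothTransition.contDiff.contDiffOn.mul (hβ.comp_contDiffOn
      (ips_self (g := g) (s := s) u ▸ sm_sl (sm_inner hu hu)))) (χ_zero _)

theorem ul_rad1 (hg : g.OK) (s : A) {β : ℝ → ℝ} (hβ : ContDiff ℝ ∞ β) (k : ℕ) (M : ℝ) :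
    ∃ C, ∀ u : X.M → V, Sm X.I u → g.Ul k u M → (∀ τ, 0 ≤ τ → g.n2 s u τ ≤ M) →
      g.Ul k (fun x => (χ (g.ht s x) * β (g.n2 s u (g.ht s x))) • u x) C := by
  let D := {u : X.M → V // Sm X.I u ∧ g.Ul k u M ∧ ∀ τ, 0 ≤ τ → g.n2 s u τ ≤ M} × ℝ≥0
  have hu : (ws s hg Prod.snd).Jt 2 (k + 1) fun d : D => d.1.1 :=
    jt_of_ul hg _ (fun d => d.1.2.1) fun d => d.1.2.2.1
  have key : (ws s hg Prod.snd).Jt 2 (k + 1) fun (d : D) x =>
      (χ (g.ht s x) * β (g.n2 s d.1.1 (g.ht s x))) • d.1.1 x := by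
    cases k with
    | zero =>
      obtain ⟨B, hB⟩ := (isCompact_Icc (a := 0) (b := M)).exists_bound_of_continuousOn
        hβ.continuous.continuousOn
      refine (Wn.Jt.one (fun d => sm_H hβ d.1.2.1) (Wn.lp0 fun _ _ => ⟨|B|, fun d x _ => ?_⟩)).smul hu
      rcases lt_or_ge (g.ht s x) 0 with e | e
      · rw [χ_zero (fun t => β (g.n2 s d.1.1 t)) _ e, norm_zero]; exact abs_nonneg B
      · rw [norm_mul, Real.norm_of_nonneg (smoothTransition.nonneg _)]
        exact (mul_le_of_le_one_left (norm_nonneg _) (smoothTransition.le_one _)).trans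
          ((hB _ ⟨n2_nn _ _, d.1.2.2.2 _ e⟩).trans (le_abs_self B))
    | succ k =>
      obtain ⟨C, hC⟩ := Nd18.bd_st
      have c : ∀ j, (ws s hg Prod.snd).Jt 0 j fun (_ : D) x => χ (g.ht s x) := fun j =>
        .cb ⟨_, CBs_rad neg_one_lt_zero hC fun _ h => smoothTransition.zero_of_nonpos h.le⟩
      have e : ∀ (d : D) x, χ (g.ht s x) * β (g.n2 s d.1.1 (g.ht s x)) =
          χ (g.ht s x) • β (ψ g s d.1.1 d.1.1 x) := fun d x => by
        rcases lt_or_ge (g.ht s x) 0 with e | e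
        · simp only [χ, smoothTransition.zero_of_nonpos e.le, zero_mul, zero_smul]
        · rw [ψ, θ_one (by linarith), one_mul, ips_self, smul_eq_mul]
      have h0 := (ψ0 hu hu).comp hβ
      exact jt_ra (tr_of hu) (fun d τ hτ y y' => by simp only [ht_pt hτ])
        (((c _).smul h0).eq e) (((c _).smul ((ψ0 hu hu).comp2 hβ h0.lp (ψ2 hu))).eq e) hu
  obtain ⟨K, hK⟩ := ns_of_jt key
  refine ⟨K, fun u h1 h2 h3 => ul_iff.2 fun j => ?_⟩
  have z : (∀ x ∈ S0 g j, x ∉ g.slab s (0 : ℝ≥0) → g.ht s x < 0) → nS g.F.toPre (S0 g j) k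
      (fun x => (χ (g.ht s x) * β (g.n2 s u (g.ht s x))) • u x) ≤ K := fun h =>
    (sqrt_le_sqrt (NS_le_of_zero (cpt_S0 hg j) (cpt_S0 hg (some (s, 0))) ((sm_H hβ h1).smul h1)
      fun x hx hx' => (ev_rad (χ_zero fun t => β (g.n2 s u t)) (h x hx hx')).mono fun y hy =>
        (congrArg (· • u y) hy).trans (zero_smul _ _))).trans (hK (⟨u, h1, h2, h3⟩, 0))
  cases j with
  | none => exact z fun x hx hx' => not_le.1 fun e => hx' ⟨e, by simpa using hx s⟩
  | some p =>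
    obtain ⟨s', τ⟩ := p
    rcases eq_or_ne s' s with rfl | e
    · exact hK (⟨u, h1, h2, h3⟩, τ)
    · exact z fun x hx _ => (ht_ne hg e ((nn_lt τ).trans_le hx.1)).trans_lt neg_one_lt_zero

theorem ul_rad (hg : g.OK) {β : A → ℝ → ℝ} (hβ : ∀ s, ContDiff ℝ ∞ (β s)) (k : ℕ) (M : ℝ) :
    ∃ C, ∀ u : X.M → V, Sm X.I u → g.Ul k u M → (∀ s τ, 0 ≤ τ → g.n2 s u τ ≤ M) →
      g.Ul k (fun x => g.rd (fun s τ => χ τ * β s (g.n2 s u τ)) x • u x) C := by
  choose C hC using fun s => ul_rad1 (V := V) hg s (hβ s) k M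
  refine ⟨∑ s, C s, fun u h1 h2 h3 => ?_⟩
  simp only [Gm.rd, Finset.sum_smul]
  exact ul_sum hg _ (fun s => (sm_H (hβ s) h1).smul h1) fun s => hC s u h1 h2 (h3 s)

end Crest.Agent.X212.Ulc97
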